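import Vale.Agent.P281.H180.TM.ESpec

/-! P281, project T-M, T0, block E4 (helper118): very general values. -/

open Set Filter Metric Vale.Agent.P281 Vale.Agent.P281.H713 Vale.Agent.P281.H64
open scoped Topology ContDiff Manifold

noncomputable section

namespace Vale.Agent.P281.H118.TM

open Vale.Agent.P281.H64.Gen (IsSmallSet)
open Vale.Agent.P281.H150.Gen (pr lst SThin AnIn NoSub)
open Vale.Agent.P281.H303.Gen (pnt pr_pnt pnt_last lst_pnt SmEq NsStmt EtAt bad anIn_bad exists_chart)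
open Vale.Agent.P281.H180.TM

section

variable {q : ℕ} {X : Type} [TopologicalSpace X] [ChartedSpace (Cm (q + 1 + 1)) X]
  [IsManifold 𝓘(ℂ, Cm (q + 1 + 1)) ω X]

/-- the map `(f, ζ)` -/
def Fz (f : X → Cm q) (ζ : X → ℂ) (x : X) : Cm (q + 1) := pnt (f x) (ζ x)

theorem hol_Fz {f : X → Cm q} {ζ : X → ℂ} {x : X} (hf : HolV (Cm (q + 1 + 1)) f x)
    (hζ : HolV (Cm (q + 1 + 1)) ζ x) : HolV (Cm (q + 1 + 1)) (Fz f ζ) x := by
  refine HolV.pi fun i => ?_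
  refine Fin.lastCases ?_ (fun j => ?_) i
  · simpa [Fz, pnt] using hζ
  · simpa [Fz, pnt] using hf.eval j

/-- a point which is étale for `(f, ζ)` is good for `f` -/
theorem gd_of_etAt {D : Set X} {f : X → Cm q} {ζ : X → ℂ} {x : X}
    (hf : HolV (Cm (q + 1 + 1)) f x) (hζ : HolV (Cm (q + 1 + 1)) ζ x)
    (h : EtAt D (Fz f ζ) x) : Gd D f x := by
  obtain ⟨e, he, he0, hD, hinj⟩ := h
  have hF := hol_Fz hf hζ
  set A := dV (Cm (q + 1 + 1)) (Fz f ζ) x with hA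
  set B := dV (Cm (q + 1 + 1)) e x with hB
  let Φ : Cm (q + 1 + 1) →ₗ[ℂ] (Cm (q + 1) × ℂ) :=
    ((A : Cm (q + 1 + 1) →ₗ[ℂ] Cm (q + 1))).prod (B : Cm (q + 1 + 1) →ₗ[ℂ] ℂ)
  have hΦi : Function.Injective Φ := by
    refine (injective_iff_map_eq_zero _).2 fun ξ hξ => ?_
    have h1 : (A ξ, B ξ) = ((0 : Cm (q + 1)), (0 : ℂ)) := hξ
    exact hinj ξ (congrArg Prod.fst h1) (congrArg Prod.snd h1)
  have hΦs : Function.Surjective Φ := by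
    refine (LinearMap.injective_iff_surjective_of_finrank_eq_finrank ?_).1 hΦi
    simp
  have hdf : ∀ ξ, dV (Cm (q + 1 + 1)) f x ξ = pr q (A ξ) := by
    intro ξ
    funext j
    have h1 := dV_apply hF j.castSucc ξ
    have h2 : (fun z => Fz f ζ z j.castSucc) = fun z => f z j := by
      funext z
      simp [Fz, pnt]
    rw [h2, ← dV_apply hf j ξ] at h1
    rw [← h1]
    rfl
  have hsurj : Function.Surjective fun ξ : Cm (q + 1 + 1) =>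
      (dV (Cm (q + 1 + 1)) f x ξ, dV (Cm (q + 1 + 1)) e x ξ) := by
    rintro ⟨y, c⟩
    obtain ⟨ξ, hξ⟩ := hΦs (pnt y 0, c)
    have h1 : (A ξ, B ξ) = (pnt y 0, c) := hξ
    refine ⟨ξ, ?_⟩
    have h2 : A ξ = pnt y 0 := congrArg Prod.fst h1
    have h3 : B ξ = c := congrArg Prod.snd h1
    simp only [hdf, h2, pr_pnt, Prod.mk.injEq, true_and]
    exact h3
  refine ⟨e, ⟨he, he0, fun h0 => ?_, hD⟩, hsurj⟩
  obtain ⟨ξ, hξ⟩ := hsurj (0, 1)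
  have h1 : dV (Cm (q + 1 + 1)) e x ξ = 1 := congrArg Prod.snd hξ
  have h2 : dV (Cm (q + 1 + 1)) e x = 0 := h0
  rw [h2] at h1
  exact zero_ne_one h1

/-- the critical values are in a countable union of thin sets, locally on the source -/
theorem crit_loc {f : X → Cm q} {x₀ : X} (hf : HolV (Cm (q + 1 + 1)) f x₀) :
    ∃ N ∈ 𝓝 x₀, ∃ S : Set (Cm q), SThin (Cm q) S ∧
      ∀ x ∈ N, f x ∉ S → Function.Surjective (dV (Cm (q + 1 + 1)) f x) := by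
  set φ := chartAt (Cm (q + 1 + 1)) x₀ with hφ
  have hx : x₀ ∈ φ.source := mem_chart_source _ x₀
  obtain ⟨V', hV', hV'o, hxV'⟩ := _root_.eventually_nhds_iff.1 hf.eventually
  set W : Set (Cm (q + 1 + 1)) := φ.target ∩ φ.symm ⁻¹' V' with hW
  have hWo : IsOpen W := φ.isOpen_inter_preimage_symm hV'o
  have hWa : ∀ z ∈ W, AnalyticAt ℂ (f ∘ φ.symm) z := by
    rintro z ⟨hz, hzV'⟩
    have h2 := (HolV.rep (φ.map_target hz) (hV' _ hzV')).analyticAt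
    rwa [← hφ, φ.right_inv hz] at h2
  have hNS : NoSub W {z | ¬ Function.Surjective (fderiv ℂ (f ∘ φ.symm) z)} (f ∘ φ.symm) := by
    intro V₁ _ _ _ W₁ ψ hW₁ hψ y hy hs
    apply (hψ y hy).2.1
    have h1 : fderiv ℂ (fun v => (f ∘ φ.symm) (ψ v)) y =
        (fderiv ℂ (f ∘ φ.symm) (ψ y)).comp (fderiv ℂ ψ y) :=
      fderiv_comp y (hWa _ (hψ y hy).2.2).differentiableAt (hψ y hy).1.differentiableAt
    rw [h1] at hs
    intro w
    obtain ⟨ξ, hξ⟩ := hs w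
    exact ⟨_, hξ⟩
  have h1 := H150.Gen.core q _ (Cm (q + 1 + 1)) rfl W _ (f ∘ φ.symm) hWo hWa
    (H150.Gen.anIn_crit hWo hWa) hNS
  refine ⟨φ.source ∩ φ ⁻¹' W, (φ.isOpen_inter_preimage hWo).mem_nhds ⟨hx, φ.map_source hx, ?_⟩, _, h1,
    ?_⟩
  · show φ.symm (φ x₀) ∈ V'
    rw [φ.left_inv hx]
    exact hxV'
  · rintro x ⟨hxs, hxW⟩ hxS
    by_contra hns
    apply hxS
    refine ⟨φ x, ⟨?_, hxW⟩, ?_⟩
    · intro hs
      apply hns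
      have hxV : φ.symm (φ x) ∈ V' := hxW.2
      rw [φ.left_inv hxs] at hxV
      rw [dV_eq_chart hxs (hV' x hxV)]
      intro w
      obtain ⟨v, hv⟩ := hs w
      obtain ⟨ξ, hξ⟩ := (H399.Gen.dV_inj (p := q + 1) hxs).2 v
      exact ⟨ξ, by rw [ContinuousLinearMap.comp_apply, hξ]; exact hv⟩
    · show f (φ.symm (φ x)) = f x
      rw [φ.left_inv hxs]

/-- the images of the points which are not étale, locally on the source -/
theorem bad_loc (hns : NsStmt) {D : Set X} {F : X → Cm (q + 1)} {x₀ : X}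
    (hF : HolV (Cm (q + 1 + 1)) F x₀) (hg : ∃ g, J.IsLocalEq (Cm (q + 1 + 1)) D g x₀) :
    ∃ N ∈ 𝓝 x₀, SThin (Cm (q + 1)) (F '' {x | x ∈ N ∧ x ∈ D ∧ ¬ EtAt D F x}) := by
  obtain ⟨g, hg⟩ := hg
  obtain ⟨W, hWo, hwW, hWt, hW1, hW2, hW3⟩ := exists_chart hg hF
  set φ := chartAt (Cm (q + 1 + 1)) x₀ with hφ
  have hx : x₀ ∈ φ.source := mem_chart_source _ x₀
  have h1 := H150.Gen.core (q + 1) _ (Cm (q + 1 + 1)) rfl W (bad (g ∘ φ.symm) (F ∘ φ.symm))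
    (F ∘ φ.symm) hWo (fun z hz => (hW1 z hz).2) (anIn_bad hWo hW1)
    (hns (q + 1) W _ _ hWo hW1 hW2)
  refine ⟨φ.source ∩ φ ⁻¹' W, (φ.isOpen_inter_preimage hWo).mem_nhds ⟨hx, hwW⟩, h1.mono ?_⟩
  rintro _ ⟨x, ⟨⟨hxs, hxW⟩, hxD, hxE⟩, rfl⟩
  refine ⟨φ x, ⟨?_, hxW⟩, ?_⟩
  · rw [← hW3 _ hxW, φ.left_inv hxs]
    exact ⟨hxD, hxE⟩
  · show F (φ.symm (φ x)) = F x
    rw [φ.left_inv hxs]

/-- **E4**, locally on the source -/
theorem count_loc (hns : NsStmt) (hsl : SliceStmt) {D : Set X} {f : X → Cm q} {x₀ : X}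
    (hf : HolV (Cm (q + 1 + 1)) f x₀) (hg : ∃ g, J.IsLocalEq (Cm (q + 1 + 1)) D g x₀) :
    ∃ N ∈ 𝓝 x₀, ∃ S : Set (Cm q), SThin (Cm q) S ∧
      (∀ x ∈ N, f x ∉ S → Function.Surjective (dV (Cm (q + 1 + 1)) f x)) ∧
      ∀ b ∉ S, {x | x ∈ N ∧ x ∈ D ∧ f x = b ∧ ¬ Gd D f x}.Countable := by
  set φ := chartAt (Cm (q + 1 + 1)) x₀ with hφ
  have hx : x₀ ∈ φ.source := mem_chart_source _ x₀
  have hζ : ∀ (j : Fin (q + 1 + 1)), ∀ x ∈ φ.source, HolV (Cm (q + 1 + 1)) (fun x => φ x j) x :=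
    fun j x hx => (HolV.chart hx).eval j
  obtain ⟨N₀, hN₀, S₀, hS₀, hsub⟩ := crit_loc hf
  have hb : ∀ j : Fin (q + 1 + 1), ∃ N ∈ 𝓝 x₀, SThin (Cm (q + 1))
      (Fz f (fun x => φ x j) '' {x | x ∈ N ∧ x ∈ D ∧ ¬ EtAt D (Fz f fun x => φ x j) x}) :=
    fun j => bad_loc hns (hol_Fz hf (hζ j x₀ hx)) hg
  choose N hN hSN using hb
  choose S hS hSb using fun j => hsl q _ (hSN j)
  refine ⟨N₀ ∩ ((⋂ j, N j) ∩ (φ.source ∩ {x | HolV (Cm (q + 1 + 1)) f x})), ?_, S₀ ∪ ⋃ j, S j,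
    hS₀.union (SThin.iUnion hS), fun x hx hxS => hsub x hx.1 fun h => hxS (Or.inl h), ?_⟩
  · exact inter_mem hN₀ (inter_mem (iInter_mem.2 hN) (inter_mem (φ.open_source.mem_nhds hx)
      hf.eventually))
  · intro b hbS
    have h1 : ∀ j, {s : ℂ | pnt b s ∈ Fz f (fun x => φ x j) ''
        {x | x ∈ N j ∧ x ∈ D ∧ ¬ EtAt D (Fz f fun x => φ x j) x}}.Countable := fun j =>
      hSb j b fun h => hbS (Or.inr (mem_iUnion.2 ⟨j, h⟩))
    refine Set.MapsTo.countable_of_injOn (f := φ) (t := {z : Cm (q + 1 + 1) | ∀ j, z j ∈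
      {s : ℂ | pnt b s ∈ Fz f (fun x => φ x j) ''
        {x | x ∈ N j ∧ x ∈ D ∧ ¬ EtAt D (Fz f fun x => φ x j) x}}}) ?_ ?_ (Set.countable_pi h1)
    · rintro x ⟨⟨hx0, hx1, hx2, hx3⟩, hxD, hxb, hxG⟩ j
      refine ⟨x, ⟨mem_iInter.1 hx1 j, hxD, fun hE => hxG (gd_of_etAt hx3 (hζ j x hx2) hE)⟩, ?_⟩
      show pnt (f x) (φ x j) = pnt b (φ x j)
      rw [hxb]
    · intro x hx y hy hxy
      exact φ.injOn hx.1.2.2.1 hy.1.2.2.1 hxy

end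

/-- **E4** -/
theorem e4 (hns : NsStmt) (hsl : SliceStmt) : CountStmt := by
  intro q X _ _ _ _ _ D U f t h
  have hl : ∀ x₀ ∈ U, ∃ N ∈ 𝓝 x₀, ∃ S : Set (Cm q), SThin (Cm q) S ∧
      (∀ x ∈ N, f x ∉ S → Function.Surjective (dV (Cm (q + 1 + 1)) f x)) ∧
      ∀ b ∉ S, {x | x ∈ N ∧ x ∈ D ∧ f x = b ∧ ¬ Gd D f x}.Countable := fun x₀ hx₀ =>
    count_loc hns hsl (h.hol x₀ hx₀).1 (h.eq x₀)
  choose! N hN S hS hsub hcnt using hl
  obtain ⟨c, hcU, hcc, hcov⟩ := TopologicalSpace.countable_cover_nhdsWithin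
    (f := N) (s := U) (fun x hx => mem_nhdsWithin_of_mem_nhds (hN x hx))
  have := hcc.to_subtype
  refine ⟨⋃ x : c, S x, ⟨SThin.iUnion fun x => hS x (hcU x.2), ?_, ?_⟩⟩
  · intro x hx hxS
    obtain ⟨y, hy, hxy⟩ := mem_iUnion₂.1 (hcov hx)
    exact hsub y (hcU hy) x hxy fun h1 => hxS (mem_iUnion.2 ⟨⟨y, hy⟩, h1⟩)
  · intro b hb
    have h1 : {x | x ∈ D ∧ x ∈ U ∧ f x = b ∧ ¬ Gd D f x} ⊆
        ⋃ y : c, {x | x ∈ N y ∧ x ∈ D ∧ f x = b ∧ ¬ Gd D f x} := by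
      rintro x ⟨hxD, hxU, hxb, hxG⟩
      obtain ⟨y, hy, hxy⟩ := mem_iUnion₂.1 (hcov hxU)
      exact mem_iUnion.2 ⟨⟨y, hy⟩, hxy, hxD, hxb, hxG⟩
    refine (Set.countable_iUnion fun y : c => ?_).mono h1
    exact hcnt y (hcU y.2) b fun h2 => hb (mem_iUnion.2 ⟨y, h2⟩)

/-- **E4**, with `NsStmt` plugged -/
theorem e4' (hsl : SliceStmt) : CountStmt := e4 H767.ns hsl

end Vale.Agent.P281.H118.TM
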