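import Vale.Agent.P281.H303.Gen.Push3
import Vale.Agent.P281.ISO.Nat

/-! P281, project T-M, T0, block E7 (helper118): a closed set which is a finite union of graphs over the
complement of a small set is a hypersurface. -/

open Set Filter Metric Vale.Agent.P281 Vale.Agent.P281.H713 Vale.Agent.P281.H64
open scoped Topology ContDiff Manifold

noncomputable section

namespace Vale.Agent.P281.H118.TM

open Vale.Agent.P281.H64.Gen (IsSmallSet)
open Vale.Agent.P281.H150.Gen (pr lst)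
open Vale.Agent.P281.H303.Gen (pnt pr_pnt pnt_last lst_pnt pnt_pr_lst continuous_pnt small_preimage
  exists_ext isPreconnected_diff)

variable {p : ℕ}

/-- near `b`, the set `C` is the union of the graphs of the `s j`, which have distinct germs -/
structure Rp (C : Set (Cm (p + 1))) (b : Cm p) {n : ℕ} (s : Fin n → Cm p → ℂ) : Prop where
  an : ∀ j, AnalyticAt ℂ (s j) b
  ne : ∀ i j, i ≠ j → ¬ ∀ᶠ b' in 𝓝 b, s i b' = s j b'
  eq : ∀ᶠ b' in 𝓝 b, ∀ σ : ℂ, pnt b' σ ∈ C ↔ ∃ j, σ = s j b'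

theorem exists_rp {C : Set (Cm (p + 1))} {b : Cm p}
    (h : ∃ (n : ℕ) (s : Fin n → Cm p → ℂ), (∀ j, AnalyticAt ℂ (s j) b) ∧
      ∀ᶠ b' in 𝓝 b, ∀ σ : ℂ, pnt b' σ ∈ C ↔ ∃ j, σ = s j b') :
    ∃ (n : ℕ) (s : Fin n → Cm p → ℂ), Rp C b s := by
  classical
  obtain ⟨s, hs, he⟩ := Nat.find_spec h
  refine ⟨Nat.find h, s, hs, fun i j hij hcon => ?_, he⟩
  obtain ⟨m, hm⟩ : ∃ m, Nat.find h = m + 1 := by
    cases hn : Nat.find h with
    | zero =>
      rw [hn] at i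
      exact i.elim0
    | succ m => exact ⟨m, rfl⟩
  have hlt : m < Nat.find h := by omega
  revert s i j
  rw [hm]
  intro s hs he i j hij hcon
  refine Nat.find_min h hlt ⟨fun k => s (j.succAbove k), fun k => hs _, ?_⟩
  filter_upwards [he, hcon] with b' h1 h2 σ
  rw [h1]
  constructor
  · rintro ⟨k, rfl⟩
    by_cases hk : k = j
    · obtain ⟨l, hl⟩ := Fin.exists_succAbove_eq hij
      exact ⟨l, by rw [hl, hk, h2]⟩
    · obtain ⟨l, hl⟩ := Fin.exists_succAbove_eq hk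
      exact ⟨l, by rw [hl]⟩
  · rintro ⟨k, rfl⟩
    exact ⟨_, rfl⟩

/-- the discriminant -/
def dsc {n : ℕ} (s : Fin n → Cm p → ℂ) (b : Cm p) : ℂ :=
  ∏ q ∈ (Finset.univ : Finset (Fin n × Fin n)).filter (fun q => q.1 ≠ q.2), (s q.1 b - s q.2 b)

theorem dsc_inj {n : ℕ} {s : Fin n → Cm p → ℂ} {b : Cm p} (h : dsc s b ≠ 0) :
    Function.Injective fun j => s j b := by
  intro i j hij
  by_contra hne
  apply h
  refine Finset.prod_eq_zero (i := (i, j)) (by simp [hne]) ?_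
  exact sub_eq_zero.2 hij

theorem Rp.dsc_an {n : ℕ} {s : Fin n → Cm p → ℂ} {b : Cm p}
    (h : ∀ j, AnalyticAt ℂ (s j) b) : AnalyticAt ℂ (dsc s) b :=
  Finset.analyticAt_fun_prod _ fun q _ => (h q.1).sub (h q.2)

theorem Rp.dsc_ne {C : Set (Cm (p + 1))} {n : ℕ} {s : Fin n → Cm p → ℂ} {b : Cm p}
    (h : Rp C b s) : ¬ ∀ᶠ z in 𝓝 b, dsc s z = 0 := by
  refine ISO.not_zero_prod (E := Cm p) (fun q _ => ?_) fun q hq => ?_
  · exact H150.Gen.holAt_of_analyticAt ((h.an q.1).sub (h.an q.2))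
  · intro hcon
    refine h.ne q.1 q.2 (Finset.mem_filter.1 hq).2 ?_
    filter_upwards [hcon] with z hz
    exact sub_eq_zero.1 hz

theorem prod_eq {n m : ℕ} {s : Fin n → ℂ} {r : Fin m → ℂ} (hs : Function.Injective s)
    (hr : Function.Injective r) (h : ∀ σ, (∃ j, σ = s j) ↔ ∃ k, σ = r k) :
    m = n ∧ ∀ σ : ℂ, ∏ j, (σ - s j) = ∏ k, (σ - r k) := by
  classical
  have h1 : Finset.univ.image s = Finset.univ.image r := by
    ext σ
    simp only [Finset.mem_image, Finset.mem_univ, true_and]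
    constructor
    · rintro ⟨j, rfl⟩
      obtain ⟨k, hk⟩ := (h _).1 ⟨j, rfl⟩
      exact ⟨k, hk.symm⟩
    · rintro ⟨k, rfl⟩
      obtain ⟨j, hj⟩ := (h _).2 ⟨k, rfl⟩
      exact ⟨j, hj.symm⟩
  refine ⟨?_, fun σ => ?_⟩
  · have h2 := congrArg Finset.card h1
    rw [Finset.card_image_of_injective _ hs, Finset.card_image_of_injective _ hr] at h2
    simpa using h2.symm
  · have h2 : ∏ x ∈ Finset.univ.image s, (σ - x) = ∏ x ∈ Finset.univ.image r, (σ - x) := by rw [h1]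
    rwa [Finset.prod_image fun i _ j _ hij => hs hij,
      Finset.prod_image fun i _ j _ hij => hr hij] at h2

/-- the representations near `b` give the same polynomial -/
theorem Rp.unique {C : Set (Cm (p + 1))} {n : ℕ} {s : Fin n → Cm p → ℂ} {b : Cm p}
    (h : Rp C b s) : ∀ᶠ b' in 𝓝 b, ∀ (m : ℕ) (r : Fin m → Cm p → ℂ), Rp C b' r →
      m = n ∧ ∀ σ : ℂ, ∏ j, (σ - s j b') = ∏ k, (σ - r k b') := by
  have h1 : ∀ᶠ b' in 𝓝 b, ∃ᶠ w in 𝓝 b', dsc s w ≠ 0 :=
    ISO.ne_frequently (E := Cm p) (H150.Gen.holAt_of_analyticAt (Rp.dsc_an h.an)) h.dsc_ne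
  have h2 : ∀ᶠ b' in 𝓝 b, ∀ j, AnalyticAt ℂ (s j) b' :=
    eventually_all.2 fun j => (h.an j).eventually_analyticAt
  filter_upwards [h1, h2, h.eq.eventually_nhds] with b' h3 h4 h5 m r hr
  have h6 : ¬ ∀ᶠ w in 𝓝 b', dsc s w * dsc r w = 0 :=
    ISO.not_zero_mul (E := Cm p) (H150.Gen.holAt_of_analyticAt (Rp.dsc_an h4))
      (H150.Gen.holAt_of_analyticAt (Rp.dsc_an hr.an)) (fun hcon => by
        obtain ⟨w, hw1, hw2⟩ := (h3.and_eventually hcon).exists
        exact hw1 hw2) hr.dsc_ne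
  have h7 : ∃ᶠ w in 𝓝 b', m = n ∧ ∀ σ : ℂ, ∏ j, (σ - s j w) = ∏ k, (σ - r k w) := by
    refine ((Filter.not_eventually.1 h6).and_eventually (h5.and hr.eq)).mono ?_
    rintro w ⟨h8, h9, h10⟩
    refine prod_eq (dsc_inj (left_ne_zero_of_mul h8)) (dsc_inj (right_ne_zero_of_mul h8)) fun σ => ?_
    rw [← h9, ← h10]
  obtain ⟨w, hw⟩ := h7.exists
  refine ⟨hw.1, fun σ => ?_⟩
  have h8 : ContinuousAt (fun w => ∏ j, (σ - s j w) - ∏ k, (σ - r k w)) b' :=
    (tendsto_finsetProd _ fun j _ => tendsto_const_nhds.sub (h4 j).continuousAt).sub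
      (tendsto_finsetProd _ fun k _ => tendsto_const_nhds.sub (hr.an k).continuousAt)
  by_contra hne
  have h9 := h8.eventually_ne (sub_ne_zero.2 hne)
  obtain ⟨w, hw1, hw2⟩ := (h7.and_eventually h9).exists
  exact hw2 (sub_eq_zero.2 (hw1.2 σ))

/-- **E7** -/
theorem ext7 {C : Set (Cm (p + 1))} {B T : Set (Cm p)} (hC : IsCompact C) (hB : IsOpen B)
    (hT : IsSmallSet (Cm p) T) (hgr : ∀ b ∈ B, b ∉ T → ∃ (n : ℕ) (s : Fin n → Cm p → ℂ),
      (∀ j, AnalyticAt ℂ (s j) b) ∧ ∀ᶠ b' in 𝓝 b, ∀ σ : ℂ, pnt b' σ ∈ C ↔ ∃ j, σ = s j b')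
    (hcl : ∀ v ∈ C, pr p v ∈ B → v ∈ closure {v' | v' ∈ C ∧ pr p v' ∉ T}) {v₀ : Cm (p + 1)}
    (hv₀ : pr p v₀ ∈ B) : ∃ Q : Cm (p + 1) → ℂ, AnalyticAt ℂ Q v₀ ∧
      (¬ ∀ᶠ v in 𝓝 v₀, Q v = 0) ∧ ∀ᶠ v in 𝓝 v₀, Q v = 0 ↔ v ∈ C := by
  classical
  have hrp : ∀ b, ∃ (n : ℕ) (s : Fin n → Cm p → ℂ), b ∈ B → b ∉ T → Rp C b s := by
    intro b
    by_cases h : b ∈ B ∧ b ∉ T
    · obtain ⟨n, s, hs⟩ := exists_rp (hgr b h.1 h.2)
      exact ⟨n, s, fun _ _ => hs⟩
    · exact ⟨0, fun j => j.elim0, fun h1 h2 => absurd ⟨h1, h2⟩ h⟩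
  choose nn ss hss using hrp
  set S : Set (Cm (p + 1)) := pr p ⁻¹' T with hS
  have hSs : IsSmallSet (Cm (p + 1)) S := small_preimage hT
  have hSd : Dense Sᶜ := H383.Gen.dense_compl_small hSs
  obtain ⟨R, hR, hRB⟩ := Metric.mem_nhds_iff.1
    ((pr p).continuous.continuousAt.preimage_mem_nhds (hB.mem_nhds hv₀))
  set Ω := ball v₀ R with hΩ
  set u : Cm (p + 1) → ℂ := fun v => ∏ j, (lst p v - ss (pr p v) j (pr p v)) with hu
  have hprT : ∀ v, v ∉ S → pr p v ∉ T := fun v hv h => hv h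
  -- near a good point, one representation is enough
  have hnear : ∀ v ∈ Ω, v ∉ S → ∀ᶠ v' in 𝓝 v, nn (pr p v') = nn (pr p v) ∧
      u v' = ∏ j, (lst p v' - ss (pr p v) j (pr p v')) := by
    intro v hv hvS
    have hpr : Tendsto (pr p) (𝓝 v) (𝓝 (pr p v)) := (pr p).continuous.tendsto v
    have h1 := (hss (pr p v) (hRB hv) (hprT v hvS)).unique
    filter_upwards [hpr.eventually h1, hpr.eventually (hB.mem_nhds (hRB hv)),
      hpr.eventually (hT.1.isOpen_compl.mem_nhds (hprT v hvS))] with v' h2 h3 h4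
    have h5 := h2 _ _ (hss (pr p v') h3 h4)
    exact ⟨h5.1, (h5.2 (lst p v')).symm⟩
  have hmem : ∀ v ∈ Ω, v ∉ S → ∀ σ : ℂ, pnt (pr p v) σ ∈ C ↔ ∃ j, σ = ss (pr p v) j (pr p v) :=
    fun v hv hvS => (hss (pr p v) (hRB hv) (hprT v hvS)).eq.self_of_nhds
  have hu0 : ∀ v ∈ Ω, v ∉ S → (u v = 0 ↔ v ∈ C) := by
    intro v hv hvS
    have h1 := hmem v hv hvS (lst p v)
    rw [pnt_pr_lst] at h1
    rw [h1, hu]
    simp only [Finset.prod_eq_zero_iff, Finset.mem_univ, true_and, sub_eq_zero]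
  -- the number of points
  obtain ⟨N, hN⟩ : ∃ N : ℕ, ∀ v ∈ Ω, v ∉ S → nn (pr p v) = N := by
    have hpc := isPreconnected_diff isOpen_ball (convex_ball v₀ R).isPreconnected hSs
    by_cases hne : (Ω \ S).Nonempty
    · obtain ⟨v₁, hv₁⟩ := hne
      refine ⟨nn (pr p v₁), fun v hv hvS => ?_⟩
      refine hpc.constant (f := fun v => nn (pr p v)) ?_ ⟨hv, hvS⟩ hv₁
      rintro v ⟨hv, hvS⟩
      refine ContinuousAt.continuousWithinAt ?_
      have h2 : (fun v' => nn (pr p v')) =ᶠ[𝓝 v] fun _ => nn (pr p v) := by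
        filter_upwards [hnear v hv hvS] with v' h3
        exact h3.1
      exact (continuousAt_const (y := nn (pr p v))).congr h2.symm
    · exact ⟨0, fun v hv hvS => absurd ⟨v, hv, hvS⟩ hne⟩
  -- the bound
  obtain ⟨M, hM⟩ : ∃ M : ℝ, ∀ v ∈ C, ‖v‖ ≤ M := hC.isBounded.exists_norm_le
  have hroot : ∀ v ∈ Ω, v ∉ S → ∀ j, ‖ss (pr p v) j (pr p v)‖ ≤ M := by
    intro v hv hvS j
    have h1 := hM _ ((hmem v hv hvS _).2 ⟨j, rfl⟩)
    have h2 := norm_le_pi_norm (pnt (pr p v) (ss (pr p v) j (pr p v))) (Fin.last p)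
    rw [pnt_last] at h2
    exact h2.trans h1
  obtain ⟨Q, hQ⟩ := exists_ext (Ω := Ω) isOpen_ball hSs (u := u) (fun v hv hvS => by
      have h1 : u =ᶠ[𝓝 v] fun v' => ∏ j, (lst p v' - ss (pr p v) j (pr p v')) := by
        filter_upwards [hnear v hv hvS] with v' h2
        exact h2.2
      refine AnalyticAt.congr ?_ h1.symm
      refine Finset.analyticAt_fun_prod _ fun j _ => ?_
      refine ((lst p).analyticAt v).sub ?_
      exact ((hss (pr p v) (hRB hv) (hprT v hvS)).an j).comp ((pr p).analyticAt v)) (by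
      intro v hv
      refine ⟨(‖v₀‖ + R + M) ^ N, ?_⟩
      filter_upwards [isOpen_ball.mem_nhds hv] with z hz hzS
      rw [hu]
      simp only [norm_prod]
      have hcard : (Finset.univ : Finset (Fin (nn (pr p z)))).card = N := by
        rw [Finset.card_univ, Fintype.card_fin, hN z hz hzS]
      rw [← hcard, ← Finset.prod_const]
      refine Finset.prod_le_prod (fun _ _ => norm_nonneg _) fun j _ => ?_
      have h1 : ‖lst p z‖ ≤ ‖z‖ := norm_le_pi_norm z (Fin.last p)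
      have h2 : ‖z‖ ≤ ‖v₀‖ + R := by
        have h3 : ‖z - v₀‖ < R := by
          rw [← dist_eq_norm]
          exact hz
        have h4 := norm_add_le v₀ (z - v₀)
        rw [add_sub_cancel] at h4
        linarith
      have h3 := norm_sub_le (lst p z) (ss (pr p z) j (pr p z))
      have h4 := hroot z hz hzS j
      linarith)
  have hCc : IsClosed C := hC.isClosed
  -- first inclusion
  have hZ2 : ∀ v ∈ Ω, Q v = 0 → v ∈ C := by
    intro v hv h0
    by_contra hvC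
    obtain ⟨ε, hε, hεC⟩ := Metric.mem_nhds_iff.1 (hCc.isOpen_compl.mem_nhds hvC)
    have h1 : ∀ᶠ v' in 𝓝 v, ‖Q v'‖ < (ε / 2) ^ N := by
      refine (hQ v hv).1.continuousAt.norm.eventually_lt_const ?_
      show ‖Q v‖ < _
      rw [h0, norm_zero]
      positivity
    have hfr : ∃ᶠ v' in 𝓝 v, v' ∈ Sᶜ := mem_closure_iff_frequently.1 (hSd v)
    obtain ⟨v', hv'S, hv'1, hv'2, hv'3⟩ := (hfr.and_eventually (h1.and
      (((isOpen_ball (x := v₀) (ε := R)).eventually_mem hv).and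
        (ball_mem_nhds v (half_pos hε))))).exists
    have hcard : (Finset.univ : Finset (Fin (nn (pr p v')))).card = N := by
      rw [Finset.card_univ, Fintype.card_fin, hN v' hv'2 hv'S]
    rw [(hQ v' hv'2).2 hv'S, hu] at hv'1
    simp only [norm_prod] at hv'1
    rw [← hcard, ← Finset.prod_const] at hv'1
    refine absurd hv'1 (not_lt.2 (Finset.prod_le_prod (fun _ _ => (half_pos hε).le) fun j _ => ?_))
    by_contra hcon
    push Not at hcon
    have h2 : pnt (pr p v') (ss (pr p v') j (pr p v')) ∈ C := (hmem v' hv'2 hv'S _).2 ⟨j, rfl⟩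
    refine hεC (a := pnt (pr p v') (ss (pr p v') j (pr p v'))) ?_ h2
    rw [mem_ball]
    have h3 : dist (pnt (pr p v') (ss (pr p v') j (pr p v'))) v' ≤
        ‖lst p v' - ss (pr p v') j (pr p v')‖ := by
      have h30 : dist (pnt (pr p v') (ss (pr p v') j (pr p v'))) (pnt (pr p v') (lst p v')) ≤
          ‖lst p v' - ss (pr p v') j (pr p v')‖ := by
        rw [dist_pi_le_iff (norm_nonneg _)]
        intro i
        refine Fin.lastCases ?_ (fun k => ?_) i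
        · rw [pnt_last, pnt_last, dist_comm, dist_eq_norm]
        · simp [pnt]
      rwa [pnt_pr_lst] at h30
    have h4 := dist_triangle (pnt (pr p v') (ss (pr p v') j (pr p v'))) v' v
    have h5 : dist v' v < ε / 2 := hv'3
    linarith
  -- second inclusion
  have hZ1 : ∀ v ∈ Ω, v ∈ C → Q v = 0 := by
    intro v hv hvC
    by_contra h0
    have h1 := ((hQ v hv).1.continuousAt.eventually_ne h0).and (isOpen_ball.eventually_mem hv)
    obtain ⟨v', ⟨h2, h3⟩, h4, h5⟩ := ((mem_closure_iff_frequently.1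
      (hcl v hvC (hRB hv))).and_eventually h1).exists
    apply h4
    rw [(hQ v' h5).2 h3]
    exact (hu0 v' h5 h3).2 h2
  refine ⟨Q, (hQ v₀ (mem_ball_self hR)).1, fun hcon => ?_, ?_⟩
  · -- not identically zero
    have h1 : ∀ᶠ v in 𝓝 v₀, v ∈ C := by
      filter_upwards [hcon, ball_mem_nhds v₀ hR] with v h2 h3
      exact hZ2 v h3 h2
    obtain ⟨v₁, hv₁S, hv₁, hv₁Ω⟩ := ((mem_closure_iff_frequently.1 (hSd v₀)).and_eventually
      ((eventually_eventually_nhds.2 h1).and (ball_mem_nhds v₀ hR))).exists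
    have h2 : Tendsto (fun s : ℂ => pnt (pr p v₁) s) (𝓝 (lst p v₁)) (𝓝 v₁) := by
      have h3 : Continuous fun s : ℂ => pnt (pr p v₁) s :=
        continuous_pnt.comp (Continuous.prodMk continuous_const continuous_id)
      have := h3.tendsto (lst p v₁)
      rwa [pnt_pr_lst] at this
    have h3 : {s : ℂ | pnt (pr p v₁) s ∈ C} ∈ 𝓝 (lst p v₁) := h2.eventually hv₁
    have h4 := infinite_of_mem_nhds _ h3
    apply h4
    refine (finite_range fun j => ss (pr p v₁) j (pr p v₁)).subset ?_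
    intro s hs
    obtain ⟨j, hj⟩ := (hmem v₁ hv₁Ω hv₁S s).1 hs
    exact ⟨j, hj.symm⟩
  · filter_upwards [ball_mem_nhds v₀ hR] with v hv
    exact ⟨hZ2 v hv, hZ1 v hv⟩

end Vale.Agent.P281.H118.TM
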