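import Vale.Agent.P281.H180.TM.ESpec
import Vale.Agent.P281.H118.TM.Ext7

/-! P281, project T-M, T0, block E7 (helper118): `ExtStmt`. -/

open Set Filter Metric Vale.Agent.P281 Vale.Agent.P281.H713 Vale.Agent.P281.H64
open scoped Topology ContDiff Manifold

noncomputable section

namespace Vale.Agent.P281.H118.TM

open Vale.Agent.P281.H64.Gen (IsSmallSet)
open Vale.Agent.P281.H150.Gen (pr lst SThin)
open Vale.Agent.P281.H303.Gen (pnt)

/-- near `b`, the set `C` is a finite union of analytic graphs -/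
def Gph {q : ℕ} (C : Set (Cm (q + 1))) (b : Cm q) : Prop :=
  ∃ (n : ℕ) (s : Fin n → Cm q → ℂ), (∀ j, AnalyticAt ℂ (s j) b) ∧
    ∀ᶠ b' in 𝓝 b, ∀ σ : ℂ, pnt b' σ ∈ C ↔ ∃ j, σ = s j b'

theorem isOpen_gph {q : ℕ} (C : Set (Cm (q + 1))) : IsOpen {b | Gph C b} := by
  rw [isOpen_iff_mem_nhds]
  rintro b ⟨n, s, h1, h2⟩
  have h3 : ∀ᶠ b' in 𝓝 b, ∀ j, AnalyticAt ℂ (s j) b' :=
    eventually_all.2 fun j => (h1 j).eventually_analyticAt
  filter_upwards [h3, h2.eventually_nhds] with b' h4 h5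
  exact ⟨n, s, h4, h5⟩

theorem gph_of_finset {q : ℕ} {C : Set (Cm (q + 1))} {b₀ : Cm q} {T : Finset (Cm q → ℂ)}
    (h : ∀ τ ∈ T, AnalyticAt ℂ τ b₀)
    (h' : ∀ᶠ b in 𝓝 b₀, ∀ s : ℂ, pnt b s ∈ C ↔ ∃ τ ∈ T, s = τ b) : Gph C b₀ := by
  refine ⟨T.card, fun j => (T.equivFin.symm j : Cm q → ℂ), fun j => h _ (T.equivFin.symm j).2, ?_⟩
  filter_upwards [h'] with b hb s
  rw [hb]
  constructor
  · rintro ⟨τ, hτ, rfl⟩
    exact ⟨T.equivFin ⟨τ, hτ⟩, by simp⟩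
  · rintro ⟨j, rfl⟩
    exact ⟨_, (T.equivFin.symm j).2, rfl⟩

/-- **E7** -/
theorem e7 : H180.TM.ExtStmt := by
  intro q C B S hC hB hS hgr hint v₀ hv₀
  obtain ⟨r, hr, hrB⟩ := Metric.nhds_basis_closedBall.mem_iff.1 (hB.mem_nhds hv₀)
  set T : Set (Cm q) := closedBall (pr q v₀) r ∩ {b | Gph C b}ᶜ with hT
  have hTc : IsClosed T := isClosed_closedBall.inter (isOpen_gph C).isClosed_compl
  have hTS : T ⊆ S := by
    rintro b ⟨h1, h2⟩
    by_contra hbS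
    obtain ⟨T', h3, h4⟩ := hgr b (hrB h1) hbS
    exact h2 (gph_of_finset h3 h4)
  have hTs : IsSmallSet (Cm q) T := by
    obtain ⟨H, hH, hSH⟩ := hS
    exact ⟨hTc, H, hH, hTS.trans hSH⟩
  have hTd : Dense Tᶜ := H383.Gen.dense_compl_small hTs
  obtain ⟨Q, h1, h2, h3⟩ := ext7 (p := q) (C := C) (B := ball (pr q v₀) r) (T := T) hC isOpen_ball
    hTs (fun b hb hbT => by
      by_contra hcon
      exact hbT ⟨ball_subset_closedBall hb, hcon⟩) (fun v hvC hvB => by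
      rw [mem_closure_iff_nhds]
      intro N hN
      obtain ⟨b, hb, hbT⟩ := hTd.inter_open_nonempty _ isOpen_interior
        (hint v hvC (hrB (ball_subset_closedBall hvB)) N hN)
      obtain ⟨v', ⟨hv'C, hv'N⟩, rfl⟩ := interior_subset hb
      exact ⟨v', hv'N, hv'C, hbT⟩) (mem_ball_self hr)
  refine ⟨Q, h1, h2, ?_⟩
  filter_upwards [h3] with v hv
  exact hv.symm

end Vale.Agent.P281.H118.TM
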