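import Vale.Agent.P281.H740.TM.SpecR3
import Vale.Agent.P281.MF.Div

/-! P281, project T-M, block R10 (helper118): selection of the good point. -/

open Set Filter Metric MeasureTheory
open Vale.Agent.P281 Vale.Agent.P281.H713 Vale.Agent.P281.H713.TZ.S
open scoped Manifold ContDiff Topology

noncomputable section

namespace Vale.Agent.P281.H118.TM

open Vale.Agent.P281.H740.TM

/-- an analytic function on `ℂ^1` is locally zero, or has isolated zeros -/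
theorem isolated {u : Cm 1 → ℂ} {v₀ : Cm 1} (hu : AnalyticAt ℂ u v₀) :
    (∀ᶠ v in 𝓝 v₀, u v = 0) ∨ ∀ᶠ v in 𝓝 v₀, v ≠ v₀ → u v ≠ 0 := by
  let L : ℂ → Cm 1 := fun s _ => s
  have hL : AnalyticAt ℂ L (v₀ 0) := by
    rw [analyticAt_pi_iff]
    exact fun _ => analyticAt_id
  have hL0 : L (v₀ 0) = v₀ := by
    funext j
    fin_cases j
    rfl
  have hLs : ∀ v : Cm 1, L (v 0) = v := by
    intro v
    funext j
    fin_cases j
    rfl
  have hc : Tendsto (fun v : Cm 1 => v 0) (𝓝 v₀) (𝓝 (v₀ 0)) :=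
    (continuous_apply (0 : Fin 1)).tendsto v₀
  have hg : AnalyticAt ℂ (fun s => u (L s)) (v₀ 0) := by
    refine AnalyticAt.comp (g := u) (f := L) ?_ hL
    rw [hL0]
    exact hu
  rcases hg.eventually_eq_zero_or_eventually_ne_zero with h | h
  · left
    filter_upwards [hc.eventually h] with v hv
    rwa [hLs] at hv
  · right
    rw [eventually_nhdsWithin_iff] at h
    filter_upwards [hc.eventually h] with v hv hne
    have h1 : v 0 ≠ v₀ 0 := by
      intro h2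
      apply hne
      rw [← hLs v, h2, hLs]
    have := hv h1
    rwa [hLs] at this

/-- neighbourhoods in a chart of `ℂ^1` are uncountable -/
theorem not_countable_nhds {d : ℕ} {C : Type} [TopologicalSpace C] [ChartedSpace (Cm (d + 1)) C]
    {c₀ : C} {N : Set C} (hN : N ∈ 𝓝 c₀) : ¬ N.Countable := by
  intro hc
  set φ := chartAt (Cm (d + 1)) c₀ with hφ
  have hx : c₀ ∈ φ.source := mem_chart_source _ c₀
  have h0 : Tendsto φ.symm (𝓝 (φ c₀)) (𝓝 c₀) := by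
    have := (φ.continuousAt_symm (φ.map_source hx)).tendsto
    rwa [φ.left_inv hx] at this
  have h1 : φ.symm ⁻¹' N ∩ φ.target ∈ 𝓝 (φ c₀) :=
    inter_mem (h0 hN) (φ.open_target.mem_nhds (φ.map_source hx))
  have h2 : (φ.symm ⁻¹' N ∩ φ.target).Countable := by
    refine Set.MapsTo.countable_of_injOn (f := φ.symm) (t := N) (fun v hv => hv.1) ?_ hc
    exact φ.symm.injOn.mono fun v hv => hv.2
  have h3 : Dense (φ.symm ⁻¹' N ∩ φ.target)ᶜ := h2.dense_compl ℂ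
  obtain ⟨v, hv1, hv2⟩ := h3.inter_nhds_nonempty h1
  exact hv1 hv2

/-- **R10 (a)** -/
theorem sel_a {q : ℕ} {X Z Y F C : Type} [TopologicalSpace X] [ChartedSpace (Cm (q + 1 + 1)) X]
    [TopologicalSpace Z] [ChartedSpace (Cm (q + 1)) Z] [IsManifold 𝓘(ℂ, Cm (q + 1)) ω Z]
    [TopologicalSpace Y] [ChartedSpace (Cm q) Y] [TopologicalSpace F] [ChartedSpace (Cm 2) F]
    [TopologicalSpace C] [ChartedSpace (Cm 1) C] {g : X → Z} {h : Z → Y} {y : Y} {i : F → X}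
    {i' : C → Z} {γ : F → C} (S : Sit q g h y i i' γ) {D : Set Z}
    (hD : J.IsPrime (Cm (q + 1)) D) (hc : (D ∩ h ⁻¹' {y}).Countable) (c₀ : C) :
    ∀ᶠ c in 𝓝 c₀, c ≠ c₀ → i' c ∉ D := by
  have := S.fC.manifold
  obtain ⟨d, V, hV, hzV, hdhol, hdD, -⟩ := hD.2.1 (i' c₀)
  have hi' : Tendsto i' (𝓝 c₀) (𝓝 (i' c₀)) := S.fC.hol.continuous.tendsto c₀
  have hVn : ∀ᶠ c in 𝓝 c₀, i' c ∈ V := hi'.eventually (hV.mem_nhds hzV)
  have hu : HolV (Cm 1) (fun c => d (i' c)) c₀ := by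
    have h1 : ContMDiffAt 𝓘(ℂ, Cm (q + 1)) 𝓘(ℂ, ℂ) ω d (i' c₀) := hdhol _ hzV
    exact h1.comp c₀ (S.fC.hol c₀)
  have ha := MF.rep_analytic hu
  set φ := chartAt (Cm 1) c₀ with hφ
  have hx : c₀ ∈ φ.source := mem_chart_source _ c₀
  have hs : ∀ᶠ c in 𝓝 c₀, c ∈ φ.source := φ.open_source.mem_nhds hx
  rcases isolated ha with h0 | h0
  · exfalso
    have h1 : ∀ᶠ c in 𝓝 c₀, i' c ∈ D := by
      filter_upwards [(MF.tendsto_chart (E := Cm 1) c₀).eventually h0, hVn, hs] with c h2 h3 h4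
      have h5 : d (i' (φ.symm (φ c))) = 0 := h2
      rw [φ.left_inv h4] at h5
      exact (hdD _ h3).2 h5
    refine not_countable_nhds (d := 0) (C := C) h1 ?_
    refine Set.MapsTo.countable_of_injOn (f := i') (t := D ∩ h ⁻¹' {y}) ?_ S.inj'.injOn hc
    intro c hcD
    exact ⟨hcD, S.fC.fibre c⟩
  · filter_upwards [(MF.tendsto_chart (E := Cm 1) c₀).eventually h0, hVn, hs] with c h2 h3 h4 hne hcD
    have h5 : φ c ≠ φ c₀ := fun h6 => hne (φ.injOn h4 hx h6)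
    have h6 : d (i' (φ.symm (φ c))) ≠ 0 := h2 h5
    rw [φ.left_inv h4] at h6
    exact h6 ((hdD _ h3).1 hcD)

/-- **R10** -/
theorem sel (hUnc : UncStmt) : SelStmt := by
  intro q X Z Y F C _ _ _ _ _ _ _ _ _ _ _ _ _ _ _ _ _ _ g h y i i' γ hg S
  refine ⟨fun D hD hc c₀ => sel_a S hD hc c₀, ?_⟩
  intro E D Bad hE hD hED hc hBad c₀ hc₀
  have := S.fF.manifold
  -- a point of `E` over `c₀`
  have hcl : IsClosed (g '' E) := (hE.1.isCompact.image hg.continuous).isClosed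
  rw [hcl.closure_eq] at hED
  obtain ⟨x₀, hx₀E, hx₀⟩ : i' c₀ ∈ g '' E := by rw [hED]; exact hc₀
  have hy : h (g x₀) = y := by rw [hx₀]; exact S.fC.fibre c₀
  obtain ⟨t₁, rfl⟩ := S.onto x₀ hy
  have hγ : γ t₁ = c₀ := S.inj' (by rw [S.comm, hx₀])
  -- the local equation of `E`
  obtain ⟨e, V, hV, hxV, hehol, heE, -⟩ := hE.2.1 (i t₁)
  have hi : Tendsto i (𝓝 t₁) (𝓝 (i t₁)) := S.fF.hol.continuous.tendsto t₁
  have hVn : ∀ᶠ t in 𝓝 t₁, i t ∈ V := hi.eventually (hV.mem_nhds hxV)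
  have hu : HolV (Cm 2) (fun t => e (i t)) t₁ := by
    have h1 : ContMDiffAt 𝓘(ℂ, Cm (q + 1 + 1)) 𝓘(ℂ, ℂ) ω e (i t₁) := hehol _ hxV
    exact h1.comp t₁ (S.fF.hol t₁)
  have ha := MF.rep_analytic hu
  set ψ := chartAt (Cm 2) t₁ with hψ
  have hx : t₁ ∈ ψ.source := mem_chart_source _ t₁
  have he0 : ((fun t => e (i t)) ∘ ψ.symm) (ψ t₁) = 0 := by
    simp only [Function.comp_apply, ψ.left_inv hx]
    exact (heE _ hxV).1 hx₀E
  -- near `t₁`, the points over `D` lie over `c₀`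
  have hA : ∀ᶠ t in 𝓝 t₁, i t ∈ E → γ t = c₀ := by
    have h1 : Tendsto γ (𝓝 t₁) (𝓝 c₀) := by
      have := S.hol.continuous.tendsto t₁
      rwa [hγ] at this
    filter_upwards [h1.eventually (sel_a S hD hc c₀)] with t ht htE
    by_contra hne
    apply ht hne
    rw [S.comm, ← hED]
    exact mem_image_of_mem g htE
  have hN : ∀ᶠ v in 𝓝 (ψ t₁), (i (ψ.symm v) ∈ E → γ (ψ.symm v) = c₀) ∧ i (ψ.symm v) ∈ V ∧
      v ∈ ψ.target := by
    have h1 := MF.tendsto_symm (E := Cm 2) t₁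
    filter_upwards [h1.eventually hA, h1.eventually hVn,
      ψ.open_target.mem_nhds (ψ.map_source hx)] with v h2 h3 h4
    exact ⟨h2, h3, h4⟩
  have hunc := hUnc _ _ ha he0 _ hN
  by_contra hcon
  push Not at hcon
  apply hunc
  refine Set.MapsTo.countable_of_injOn (f := fun v => i (ψ.symm v))
    (t := Bad ∩ (fun x => h (g x)) ⁻¹' {y}) ?_ ?_ hBad
  · rintro v ⟨⟨h1, h2, h3⟩, h4⟩
    have h5 : i (ψ.symm v) ∈ E := (heE _ h2).2 h4
    exact ⟨hcon _ (h1 h5) h5, S.fF.fibre _⟩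
  · intro v hv v' hv' hvv
    exact ψ.symm.injOn hv.1.2.2 hv'.1.2.2 (S.inj hvv)

end Vale.Agent.P281.H118.TM
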