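import Vale.Agent.P281.H118.TM.Sel
import Vale.Agent.P281.H406.TM.R45

/-! P281, project T-M, block R10 (helper118), without input. -/

namespace Vale.Agent.P281.H118.TM

theorem selStmt : Vale.Agent.P281.H740.TM.SelStmt := sel H406.TM.uncStmt

end Vale.Agent.P281.H118.TM
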